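import Vale.Agent.P281.H615.NC.Geo
import Vale.Agent.P281.H22.NC.Mdf
import Vale.Agent.P281.H83.HK.Spec

/-!
# P281, project T-NC (helper615), block L3-HK: the fibres of `f ∘ u`, for a modification `u`, closed
holomorphic 2-forms
-/

open Set Filter Metric Vale.Agent.P281 Vale.Agent.P281.H713 Vale.Agent.P272.K
open scoped Topology ContDiff Manifold ComplexConjugate ComplexOrder

noncomputable section

namespace Vale.Agent.P281.H615.NC

open Vale.Agent.P281.H64.TK Vale.Agent.P281.H64.TK.TS Vale.Agent.P281.H83.HK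
open Vale.Agent.P281.H64.TK.TE (IsSquareE)

theorem Psi.mdf {d : ℕ} {E K F : Type} [TopologicalSpace E] [Group K] [MulAction K E]
    [TopologicalSpace F] [ChartedSpace (Cm d) F] [Subsingleton K] {S : Sheets d E K} {ψ : E → F}
    {A : Set F} (h : Psi S ψ A) : H22.NC.Mdf S ψ A where
  cont := h.cont
  small := h.small
  dense := by
    intro e
    rw [mem_closure_iff_nhds]
    intro U hU
    obtain ⟨γ, j, z, hz, he⟩ := S.cover e
    rw [Subsingleton.elim γ 1, one_smul] at he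
    have hz3 : z ∈ ball (0 : Cm d) 3 := mem_ball_zero_iff.2 (by linarith)
    have h1 : S.σ j ⁻¹' U ∈ 𝓝 z := by
      rw [← he, ← S.map_nhds j z hz3] at hU
      exact hU
    obtain ⟨w, h2, -, h3⟩ := h.dense j z hz3 _ h1
    exact ⟨S.σ j w, h2, h3⟩
  inj := h.inj
  surj x _ := h.surj x
  fwd := h.hol
  bwd j z hz hA c hc hs := by
    obtain ⟨κ, h1, h2, h3⟩ := h.exists_inv hz hc hs hA
    exact ⟨κ, h1, h2, h3.mono fun v hv => hv.2.1⟩

/-- **L3-HK** -/
theorem fibHC {p d : ℕ} (hd : 0 < d) {X Y X₁ : Type} [TopologicalSpace X] [T2Space X]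
    [ChartedSpace (Cm (p + d)) X] [IsManifold 𝓘(ℂ, Cm (p + d)) ω X] [TopologicalSpace Y]
    [T2Space Y] [ChartedSpace (Cm p) Y] [IsManifold 𝓘(ℂ, Cm p) ω Y] [TopologicalSpace X₁]
    [T2Space X₁] [ChartedSpace (Cm (p + d)) X₁] [IsManifold 𝓘(ℂ, Cm (p + d)) ω X₁] {f : X → Y}
    {u : X₁ → X} {S : Set Y} {y : Y} {F : Type} [TopologicalSpace F] [T2Space F]
    [SimplyConnectedSpace F] [ChartedSpace (Cm d) F] {i : F → X}
    (hsq : IsSquareE (p + d) p d f (fun z => f (u z)) u (id : Y → Y) S S y y i) (hAB : ABStmt)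
    (hF : Sympl d F) : ∃ N, 0 < N ∧ NDeg2 p d N (fun z => f (u z)) y := by
  obtain ⟨E, Γ, tE, t2, sc, gΓ, aΓ, cΓ, hfin, 𝓕, q, χ, t, ht, M, hy, hN, ψ, -, hψ⟩ :=
    exists_psi hd hsq hAB
  have hFm : IsManifold 𝓘(ℂ, Cm d) ω F := hsq.fibre.manifold
  exact ⟨Nat.card Γ, hN, E, Γ, tE, t2, sc, gΓ, aΓ, cΓ, hfin, 𝓕, q, χ, t, ht, M, hy, rfl,
    hψ.mdf.gen2 H485.Gen.har hd hF⟩

end Vale.Agent.P281.H615.NC
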