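import Vale.Agent.P281.H22.TS.Xfer
import Vale.Agent.P281.H485.Gen.Har
import Vale.Agent.P281.H308.Bir.Main

/-!
# P281, project T-NC (helper615): forms of top degree on `E`, for `ψ : E → F` surjective and an
isomorphism off a small set of codimension two of `F`
-/

open Set Filter Metric Vale.Agent.P281 Vale.Agent.P272.K
open scoped Topology ContDiff Manifold ComplexConjugate ComplexOrder

set_option linter.unusedSectionVars false

noncomputable section

namespace Vale.Agent.P281.H615.NC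

open Vale.Agent.P281.H64.TK Vale.Agent.P281.H64.TK.TS Vale.Agent.P281.H22.TS
open Vale.Agent.P281.H64.Gen (IsSmall2)

section psi
variable {d : ℕ} {E K F : Type} [TopologicalSpace E] [Group K] [MulAction K E]
  [TopologicalSpace F] [ChartedSpace (Cm d) F]

/-- `ψ : E → F` is holomorphic and surjective, and an isomorphism off the small set `A`. -/
structure Psi (S : Sheets d E K) (ψ : E → F) (A : Set F) : Prop where
  cont : Continuous ψ
  surj : Function.Surjective ψ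
  inj : ∀ e e', ψ e = ψ e' → ψ e ∉ A → e = e'
  hol : ∀ j, ∀ z ∈ ball (0 : Cm d) 3, ∀ c ∈ atlas (Cm d) F, ψ (S.σ j z) ∈ c.source →
    AnalyticAt ℂ (fun u => c (ψ (S.σ j u))) z
  nd : ∀ j, ∀ z ∈ ball (0 : Cm d) 3, ∀ c ∈ atlas (Cm d) F, ψ (S.σ j z) ∈ c.source →
    ψ (S.σ j z) ∉ A → (H64.TK.jac (fun u => c (ψ (S.σ j u))) z).det ≠ 0
  small : IsSmall2 (Cm d) A
  dense : ∀ j, ∀ z ∈ ball (0 : Cm d) 3, ∀ U ∈ 𝓝 z, ∃ w ∈ U, w ∈ ball (0 : Cm d) 3 ∧
    ψ (S.σ j w) ∉ A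

/-- the Jacobian matrix of `c ∘ ψ ∘ σ j` -/
def pj (S : Sheets d E K) (ψ : E → F) (c : Chart d F) (j : Fin S.N) (z : Cm d) :
    Matrix (Fin d) (Fin d) ℂ :=
  H64.TK.jac (fun u => c (ψ (S.σ j u))) z

section chart
variable [IsManifold 𝓘(ℂ, Cm d) ω F]

theorem chart_md {c : Chart d F} (hc : c ∈ atlas (Cm d) F) {x : F} (hx : x ∈ c.source) :
    ContMDiffAt 𝓘(ℂ, Cm d) 𝓘(ℂ, Cm d) ω c x :=
  contMDiffAt_of_mem_maximalAtlas (IsManifold.subset_maximalAtlas hc) hx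

theorem symm_md {c : Chart d F} (hc : c ∈ atlas (Cm d) F) {v : Cm d} (hv : v ∈ c.target) :
    ContMDiffAt 𝓘(ℂ, Cm d) 𝓘(ℂ, Cm d) ω c.symm v :=
  contMDiffAt_symm_of_mem_maximalAtlas (IsManifold.subset_maximalAtlas hc) hv

/-- the transition maps are analytic -/
theorem trans_an {c c' : Chart d F} (hc : c ∈ atlas (Cm d) F) (hc' : c' ∈ atlas (Cm d) F) {x : F}
    (hx : x ∈ c.source) (hx' : x ∈ c'.source) :
    AnalyticAt ℂ (fun u => c' (c.symm u)) (c x) := by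
  have h1 := symm_md hc (c.map_source hx)
  have h2 : ContMDiffAt 𝓘(ℂ, Cm d) 𝓘(ℂ, Cm d) ω c' (c.symm (c x)) := by
    rw [c.left_inv hx]
    exact chart_md hc' hx'
  have h3 : ContMDiffAt 𝓘(ℂ, Cm d) 𝓘(ℂ, Cm d) ω (fun u => c' (c.symm u)) (c x) :=
    ContMDiffAt.comp (c x) h2 h1
  exact (contMDiffAt_iff_contDiffAt.1 h3).analyticAt

end chart

/-- the inverse function theorem, for analytic maps of `ℂ^d` -/
theorem exists_locinv {g : Cm d → Cm d} {z : Cm d} (hg : AnalyticAt ℂ g z)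
    (hdet : (H64.TK.jac g z).det ≠ 0) : ∃ κ : Cm d → Cm d, AnalyticAt ℂ κ (g z) ∧ κ (g z) = z ∧
      ∀ᶠ v in 𝓝 (g z), g (κ v) = v := by
  have h1 : H64.TK.jac g z = LinearMap.toMatrix' (fderiv ℂ g z : Cm d →ₗ[ℂ] Cm d) := rfl
  have h2 : IsUnit (LinearMap.det (fderiv ℂ g z : Cm d →ₗ[ℂ] Cm d)) := by
    rw [← LinearMap.det_toMatrix', ← h1]
    exact isUnit_iff_ne_zero.2 hdet
  set L : Cm d ≃L[ℂ] Cm d := (LinearEquiv.ofIsUnitDet (f := (fderiv ℂ g z : Cm d →ₗ[ℂ] Cm d))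
    (v := Pi.basisFun ℂ (Fin d)) (v' := Pi.basisFun ℂ (Fin d)) (by
      rw [LinearMap.det_toMatrix]
      exact h2)).toContinuousLinearEquiv with hL
  have hL' : (L : Cm d →L[ℂ] Cm d) = fderiv ℂ g z := by
    ext v
    rfl
  have h3 : HasFDerivAt g (L : Cm d →L[ℂ] Cm d) z := by
    rw [hL']
    exact hg.differentiableAt.hasFDerivAt
  have h4 : ContDiffAt ℂ ω g z := hg.contDiffAt
  refine ⟨h4.localInverse h3 (by simp), (h4.to_localInverse h3 (by simp)).analyticAt,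
    h4.localInverse_apply_image h3 (by simp), ?_⟩
  have h5 := (h4.hasStrictFDerivAt' h3 (by simp)).eventually_right_inverse
  exact h5

variable {S : Sheets d E K} {ψ : E → F} {A : Set F}

theorem Psi.contAt (h : Psi S ψ A) {j : Fin S.N} {z : Cm d} (hz : z ∈ ball (0 : Cm d) 3) :
    ContinuousAt (fun u => ψ (S.σ j u)) z :=
  h.cont.continuousAt.comp (S.map_nhds j z hz).le

/-- change of the chart -/
theorem Psi.pj_chart [IsManifold 𝓘(ℂ, Cm d) ω F] (h : Psi S ψ A) {j : Fin S.N} {z : Cm d}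
    (hz : z ∈ ball (0 : Cm d) 3) {e e' : Chart d F} (he : e ∈ atlas (Cm d) F)
    (hs : ψ (S.σ j z) ∈ e.source) (he' : e' ∈ atlas (Cm d) F) (hs' : ψ (S.σ j z) ∈ e'.source) :
    pj S ψ e' j z = H64.TK.jac (fun u => e' (e.symm u)) (e (ψ (S.σ j z))) * pj S ψ e j z := by
  have h7 : (fun u => e' (ψ (S.σ j u))) =ᶠ[𝓝 z] fun u => e' (e.symm (e (ψ (S.σ j u)))) := by
    filter_upwards [(h.contAt hz).eventually (e.open_source.mem_nhds hs)] with u hu
    rw [e.left_inv hu]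
  show H64.TK.jac (fun u => e' (ψ (S.σ j u))) z = _
  rw [jac_congr h7, jac_comp (η := fun u => e' (e.symm u)) rfl
    (trans_an he he' hs hs').differentiableAt (h.hol j z hz e he hs).differentiableAt]
  rfl

/-- change of the sheet -/
theorem Psi.pj_sheet (h : Psi S ψ A) {i j : Fin S.N} {z z' : Cm d}
    (hz' : z' ∈ ball (0 : Cm d) 3) {e : Chart d F} (he : e ∈ atlas (Cm d) F)
    (hs : ψ (S.σ j z') ∈ e.source) {θ : Cm d → Cm d} (h1 : AnalyticAt ℂ θ z) (h2 : θ z = z')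
    (h3 : ∀ᶠ u in 𝓝 z, S.σ i u = S.σ j (θ u)) :
    pj S ψ e i z = pj S ψ e j z' * H64.TK.jac θ z := by
  have h4 : (fun u => e (ψ (S.σ i u))) =ᶠ[𝓝 z] fun u => e (ψ (S.σ j (θ u))) := by
    filter_upwards [h3] with u hu
    rw [hu]
  show H64.TK.jac (fun u => e (ψ (S.σ i u))) z = _
  rw [jac_congr h4, jac_comp (η := fun u => e (ψ (S.σ j u))) h2
    (h.hol j z' hz' e he hs).differentiableAt h1.differentiableAt]
  rfl

theorem Psi.pj_det_an (h : Psi S ψ A) {j : Fin S.N} {z : Cm d} (hz : z ∈ ball (0 : Cm d) 3)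
    {e : Chart d F} (he : e ∈ atlas (Cm d) F) (hs : ψ (S.σ j z) ∈ e.source) :
    AnalyticAt ℂ (fun z => (pj S ψ e j z).det) z :=
  jac_analyticAt (h.hol j z hz e he hs)

/-- the local inverse off `A` -/
theorem Psi.exists_inv (h : Psi S ψ A) {j : Fin S.N} {z : Cm d} (hz : z ∈ ball (0 : Cm d) 3)
    {c : Chart d F} (hc : c ∈ atlas (Cm d) F) (hs : ψ (S.σ j z) ∈ c.source)
    (hA : ψ (S.σ j z) ∉ A) : ∃ κ : Cm d → Cm d, AnalyticAt ℂ κ (c (ψ (S.σ j z))) ∧
      κ (c (ψ (S.σ j z))) = z ∧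
      ∀ᶠ v in 𝓝 (c (ψ (S.σ j z))), κ v ∈ ball (0 : Cm d) 3 ∧ ψ (S.σ j (κ v)) = c.symm v ∧
        c (ψ (S.σ j (κ v))) = v := by
  obtain ⟨κ, h1, h2, h3⟩ := exists_locinv (h.hol j z hz c hc hs) (h.nd j z hz c hc hs hA)
  refine ⟨κ, h1, h2, ?_⟩
  have h4 : ∀ᶠ v in 𝓝 (c (ψ (S.σ j z))), κ v ∈ ball (0 : Cm d) 3 := by
    refine h1.continuousAt.eventually (p := fun y => y ∈ ball (0 : Cm d) 3) ?_
    rw [h2]
    exact isOpen_ball.mem_nhds hz
  have h5 : ∀ᶠ v in 𝓝 (c (ψ (S.σ j z))), ψ (S.σ j (κ v)) ∈ c.source := by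
    have h6 : ContinuousAt (fun v => ψ (S.σ j (κ v))) (c (ψ (S.σ j z))) :=
      ContinuousAt.comp (g := fun u => ψ (S.σ j u)) (f := κ) (by
        rw [h2]
        exact h.contAt hz) h1.continuousAt
    refine h6.eventually (p := fun y => y ∈ c.source) ?_
    show ∀ᶠ y in 𝓝 (ψ (S.σ j (κ (c (ψ (S.σ j z)))))), y ∈ c.source
    rw [h2]
    exact c.open_source.mem_nhds hs
  filter_upwards [h3, h4, h5] with v a1 a2 a3
  refine ⟨a2, ?_, a1⟩
  rw [← c.left_inv a3, a1]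

/-! ### Forms: from `F` to `E` -/

/-- the pull-back of a form to `E` -/
def upF (S : Sheets d E K) (ψ : E → F) (s : Chart d F → Cm d → ℂ) (j : Fin S.N) (z : Cm d) : ℂ :=
  s (chartAt (Cm d) (ψ (S.σ j z))) (chartAt (Cm d) (ψ (S.σ j z)) (ψ (S.σ j z))) *
    (pj S ψ (chartAt (Cm d) (ψ (S.σ j z))) j z).det

section up
variable [IsManifold 𝓘(ℂ, Cm d) ω F]

theorem Psi.up_eq (h : Psi S ψ A) {s : Chart d F → Cm d → ℂ} (hc : IsCan s) {j : Fin S.N}
    {z : Cm d} (hz : z ∈ ball (0 : Cm d) 3) {e : Chart d F} (he : e ∈ atlas (Cm d) F)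
    (hs : ψ (S.σ j z) ∈ e.source) :
    upF S ψ s j z = s e (e (ψ (S.σ j z))) * (pj S ψ e j z).det := by
  have h0 : chartAt (Cm d) (ψ (S.σ j z)) ∈ atlas (Cm d) F := chart_mem_atlas _ _
  have hs0 : ψ (S.σ j z) ∈ (chartAt (Cm d) (ψ (S.σ j z))).source := mem_chart_source _ _
  show s _ _ * (pj S ψ _ j z).det = _
  rw [hc.change _ h0 e he _ ⟨hs0, hs⟩, h.pj_chart hz h0 hs0 he hs, Matrix.det_mul, mul_assoc]

theorem Psi.up_hol (h : Psi S ψ A) {s : Chart d F → Cm d → ℂ} (hc : IsCan s) :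
    HolD S (upF S ψ s) := by
  refine ⟨fun j z hz => ?_, fun i j z hz z' hz' θ h1 h2 h3 => ?_⟩
  · set e := chartAt (Cm d) (ψ (S.σ j z)) with hedef
    have he : e ∈ atlas (Cm d) F := chart_mem_atlas _ _
    have hs : ψ (S.σ j z) ∈ e.source := mem_chart_source _ _
    have h9 : upF S ψ s j =ᶠ[𝓝 z] fun u => s e (e (ψ (S.σ j u))) * (pj S ψ e j u).det := by
      filter_upwards [(h.contAt hz).eventually (e.open_source.mem_nhds hs),
        isOpen_ball.mem_nhds hz] with u hu hu3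
      exact h.up_eq hc hu3 he hu
    have h10 : DifferentiableAt ℂ (fun u => s e (e (ψ (S.σ j u)))) z := by
      have h11 : DifferentiableAt ℂ (s e) (e (ψ (S.σ j z))) :=
        (hc.hol e he).differentiableAt (e.open_target.mem_nhds (e.map_source hs))
      exact DifferentiableAt.comp (g := s e) (f := fun u => e (ψ (S.σ j u))) z h11
        (h.hol j z hz e he hs).differentiableAt
    exact ((h10.mul (h.pj_det_an hz he hs).differentiableAt).congr_of_eventuallyEq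
      h9).differentiableWithinAt
  · set e := chartAt (Cm d) (ψ (S.σ j z')) with hedef
    have he : e ∈ atlas (Cm d) F := chart_mem_atlas _ _
    have hs' : ψ (S.σ j z') ∈ e.source := mem_chart_source _ _
    have h4 : S.σ i z = S.σ j z' := by
      have h5 := h3.self_of_nhds
      rw [h2] at h5
      exact h5
    have hs : ψ (S.σ i z) ∈ e.source := by rw [h4]; exact hs'
    rw [h.up_eq hc hz he hs, h.up_eq hc hz' he hs', h.pj_sheet hz' he hs' h1 h2 h3, h4,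
      Matrix.det_mul, mul_assoc]

end up

/-! ### Forms: from `E` to `F` -/

variable [Subsingleton K]

/-- a sheet and a point of the ball over `x ∈ F` -/
def qt (h : Psi S ψ A) (x : F) : Fin S.N × Cm d := pt S (Function.surjInv h.surj x)

theorem qt_mem (h : Psi S ψ A) (x : F) : (qt h x).2 ∈ ball (0 : Cm d) 3 := pt_mem S _

theorem qt_spec (h : Psi S ψ A) (x : F) : ψ (S.σ (qt h x).1 (qt h x).2) = x := by
  show ψ (S.σ (pt S (Function.surjInv h.surj x)).1 (pt S (Function.surjInv h.surj x)).2) = x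
  rw [pt_spec]
  exact Function.surjInv_eq h.surj x

/-- the form on `F` given by a form on `E`, off `A` -/
def dn (h : Psi S ψ A) (s : Fin S.N → Cm d → ℂ) (c : Chart d F) (x : F) : ℂ :=
  s (qt h x).1 (qt h x).2 / (pj S ψ c (qt h x).1 (qt h x).2).det

theorem dn_eq (h : Psi S ψ A) {s : Fin S.N → Cm d → ℂ} (hs : HolD S s) {j : Fin S.N} {z : Cm d}
    (hz : z ∈ ball (0 : Cm d) 3) {c : Chart d F} (hc : c ∈ atlas (Cm d) F)
    (hcs : ψ (S.σ j z) ∈ c.source) (hA : ψ (S.σ j z) ∉ A) :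
    dn h s c (ψ (S.σ j z)) = s j z / (pj S ψ c j z).det := by
  unfold dn
  set q := qt h (ψ (S.σ j z)) with hq
  have hq3 : q.2 ∈ ball (0 : Cm d) 3 := qt_mem h _
  have hqψ : ψ (S.σ q.1 q.2) = ψ (S.σ j z) := qt_spec h _
  have hqs : S.σ q.1 q.2 = S.σ j z := h.inj _ _ hqψ (by rw [hqψ]; exact hA)
  obtain ⟨θ, h1, h2, h3⟩ := S.hol j q.1 z hz q.2 hq3 1 (by rw [one_smul, hqs])
  simp only [one_smul] at h3
  have hs' : ψ (S.σ q.1 q.2) ∈ c.source := by rw [hqψ]; exact hcs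
  have h4 := h.pj_sheet hq3 hc hs' h1 h2 h3
  have h5 := hs.change j q.1 z hz q.2 hq3 θ h1 h2 h3
  have h6 : (H64.TK.jac θ z).det ≠ 0 := by
    intro h7
    refine h.nd j z hz c hc hcs hA ?_
    show (pj S ψ c j z).det = 0
    rw [h4, Matrix.det_mul, h7, mul_zero]
  rw [h4, h5, Matrix.det_mul, mul_div_mul_right _ _ h6]

variable [IsManifold 𝓘(ℂ, Cm d) ω F]

theorem dn_hol (h : Psi S ψ A) {s : Fin S.N → Cm d → ℂ} (hs : HolD S s) {c : Chart d F}
    (hc : c ∈ atlas (Cm d) F) {x : F} (hx : x ∈ c.source) (hA : x ∉ A) :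
    HolAt (Cm d) (dn h s c) x := by
  set j := (qt h x).1 with hj
  set z := (qt h x).2 with hz
  have hz3 : z ∈ ball (0 : Cm d) 3 := qt_mem h x
  have hψ : ψ (S.σ j z) = x := qt_spec h x
  have hcs : ψ (S.σ j z) ∈ c.source := by rw [hψ]; exact hx
  obtain ⟨κ, h1, h2, h3⟩ := h.exists_inv hz3 hc hcs (by rw [hψ]; exact hA)
  have hmain : AnalyticAt ℂ (fun v => s j (κ v) / (pj S ψ c j (κ v)).det) (c x) := by
    have a1 : AnalyticAt ℂ (s j) (κ (c (ψ (S.σ j z)))) := by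
      rw [h2]
      exact MF.analyticAt_of_differentiableOn isOpen_ball (hs.hol j) hz3
    have a2 : AnalyticAt ℂ (fun z => (pj S ψ c j z).det) (κ (c (ψ (S.σ j z)))) := by
      rw [h2]
      exact h.pj_det_an hz3 hc hcs
    have a3 : AnalyticAt ℂ (fun v => s j (κ v)) (c (ψ (S.σ j z))) := a1.comp h1
    have a4 : AnalyticAt ℂ (fun v => (pj S ψ c j (κ v)).det) (c (ψ (S.σ j z))) :=
      AnalyticAt.comp (g := fun z => (pj S ψ c j z).det) a2 h1
    have a5 := a3.fun_div a4 (by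
      rw [h2]
      exact h.nd j z hz3 c hc hcs (by rw [hψ]; exact hA))
    rwa [hψ] at a5
  have hcomp : HolAt (Cm d) (fun x' => s j (κ (c x')) / (pj S ψ c j (κ (c x'))).det) x :=
    ContMDiffAt.comp x (g := fun v => s j (κ v) / (pj S ψ c j (κ v)).det) (f := c)
      hmain.contDiffAt.contMDiffAt (chart_md hc hx)
  refine ContMDiffAt.congr_of_eventuallyEq hcomp ?_
  rw [hψ] at h3
  filter_upwards [(c.continuousAt hx).eventually h3, c.open_source.mem_nhds hx,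
    h.small.1.isOpen_compl.mem_nhds hA] with x' b1 b2 b3
  obtain ⟨b4, b5, b6⟩ := b1
  rw [c.left_inv b2] at b5
  have b7 := dn_eq h hs (j := j) b4 hc (by rw [b5]; exact b2) (by rw [b5]; exact b3)
  rw [b5] at b7
  exact b7

variable [T2Space F]

theorem dn_change (h : Psi S ψ A) {s : Fin S.N → Cm d → ℂ} (hs : HolD S s) {c c' : Chart d F}
    (hc : c ∈ atlas (Cm d) F) (hc' : c' ∈ atlas (Cm d) F) {x : F} (hx : x ∈ c.source)
    (hx' : x ∈ c'.source) (hA : x ∉ A) :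
    dn h s c x = dn h s c' x * (H64.TK.jac (fun u => c' (c.symm u)) (c x)).det := by
  set j := (qt h x).1 with hj
  set z := (qt h x).2 with hz
  have hz3 : z ∈ ball (0 : Cm d) 3 := qt_mem h x
  have hψ : ψ (S.σ j z) = x := qt_spec h x
  have hcs : ψ (S.σ j z) ∈ c.source := by rw [hψ]; exact hx
  have hcs' : ψ (S.σ j z) ∈ c'.source := by rw [hψ]; exact hx'
  have hA' : ψ (S.σ j z) ∉ A := by rw [hψ]; exact hA
  have h1 := dn_eq h hs hz3 hc hcs hA'
  have h2 := dn_eq h hs hz3 hc' hcs' hA'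
  have h3 := h.pj_chart hz3 hc hcs hc' hcs'
  have h4 : (pj S ψ c j z).det ≠ 0 := h.nd j z hz3 c hc hcs hA'
  have h5 : (pj S ψ c' j z).det ≠ 0 := h.nd j z hz3 c' hc' hcs' hA'
  rw [hψ] at h1 h2 h3
  rw [h1, h2]
  have h6 : (H64.TK.jac (fun u => c' (c.symm u)) (c x)).det ≠ 0 := by
    intro h7
    rw [h3, Matrix.det_mul, h7, zero_mul] at h5
    exact h5 rfl
  rw [h3, Matrix.det_mul]
  field_simp

theorem neBot_off (hA : IsSmall2 (Cm d) A) (x : F) : (𝓝[Aᶜ] x).NeBot := by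
  rw [← mem_closure_iff_nhdsWithin_neBot]
  exact H383.Gen.dense_compl_small (H308.Bir.small_of_small2 hA) x

/-- **the extension to `F`** -/
theorem exists_down (h : Psi S ψ A) {s : Fin S.N → Cm d → ℂ} (hs : HolD S s) :
    ∃ t : Chart d F → Cm d → ℂ, IsCan t ∧ ∀ j, ∀ z ∈ ball (0 : Cm d) 3, ∀ c ∈ atlas (Cm d) F,
      ψ (S.σ j z) ∈ c.source → s j z = t c (c (ψ (S.σ j z))) * (pj S ψ c j z).det := by
  classical
  have hex : ∀ c : Chart d F, ∃ g : F → ℂ, c ∈ atlas (Cm d) F → (∀ x ∈ c.source,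
      HolAt (Cm d) g x) ∧ ∀ x ∈ c.source, x ∉ A → g x = dn h s c x := by
    intro c
    by_cases hc : c ∈ atlas (Cm d) F
    · obtain ⟨g, hg⟩ := H485.Gen.har d F A c.source (dn h s c) h.small c.open_source
        fun x hx hA => dn_hol h hs hc hx hA
      exact ⟨g, fun _ => hg⟩
    · exact ⟨0, fun hc' => absurd hc' hc⟩
  choose g hg using hex
  have hgh : ∀ c ∈ atlas (Cm d) F, ∀ x ∈ c.source, HolAt (Cm d) (g c) x :=
    fun c hc => (hg c hc).1
  have hge : ∀ c ∈ atlas (Cm d) F, ∀ x ∈ c.source, x ∉ A → g c x = dn h s c x :=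
    fun c hc => (hg c hc).2
  have hdiff : ∀ c ∈ atlas (Cm d) F, DifferentiableOn ℂ (fun v => g c (c.symm v)) c.target := by
    intro c hc v hv
    have h1 : ContMDiffAt 𝓘(ℂ, Cm d) 𝓘(ℂ, ℂ) ω (fun v => g c (c.symm v)) v :=
      ContMDiffAt.comp v (g := g c) (f := c.symm) (hgh c hc _ (c.map_target hv)) (symm_md hc hv)
    exact ((contMDiffAt_iff_contDiffAt.1 h1).differentiableAt (by simp)).differentiableWithinAt
  refine ⟨fun c v => g c (c.symm v), ⟨hdiff, ?_⟩, ?_⟩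
  · rintro c hc c' hc' x ⟨hx, hx'⟩
    show g c (c.symm (c x)) = g c' (c'.symm (c' x)) * _
    rw [c.left_inv hx, c'.left_inv hx']
    have hne := neBot_off h.small x
    have c1 : Tendsto (g c) (𝓝[Aᶜ] x) (𝓝 (g c x)) :=
      (hgh c hc x hx).continuousAt.tendsto.mono_left nhdsWithin_le_nhds
    have c2 : Tendsto (fun x => g c' x * (H64.TK.jac (fun u => c' (c.symm u)) (c x)).det)
        (𝓝[Aᶜ] x) (𝓝 (g c' x * (H64.TK.jac (fun u => c' (c.symm u)) (c x)).det)) := by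
      have c3 : ContinuousAt (fun x => (H64.TK.jac (fun u => c' (c.symm u)) (c x)).det) x :=
        ContinuousAt.comp (g := fun v => (H64.TK.jac (fun u => c' (c.symm u)) v).det) (f := c)
          (jac_analyticAt (trans_an hc hc' hx hx')).continuousAt (c.continuousAt hx)
      exact (((hgh c' hc' x hx').continuousAt).mul c3).tendsto.mono_left nhdsWithin_le_nhds
    refine tendsto_nhds_unique_of_eventuallyEq c1 c2 ?_
    filter_upwards [mem_nhdsWithin_of_mem_nhds (c.open_source.mem_nhds hx),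
      mem_nhdsWithin_of_mem_nhds (c'.open_source.mem_nhds hx'), self_mem_nhdsWithin]
      with x' b1 b2 b3
    rw [hge c hc x' b1 b3, hge c' hc' x' b2 b3, dn_change h hs hc hc' b1 b2 b3]
  · intro j z hz c hc hcs
    show s j z = g c (c.symm (c (ψ (S.σ j z)))) * _
    rw [c.left_inv hcs]
    have hne : (𝓝[{w | w ∈ ball (0 : Cm d) 3 ∧ ψ (S.σ j w) ∉ A}] z).NeBot := by
      rw [← mem_closure_iff_nhdsWithin_neBot, mem_closure_iff_nhds]
      intro U hU
      obtain ⟨w, h1, h2, h3⟩ := h.dense j z hz U hU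
      exact ⟨w, h1, h2, h3⟩
    have c1 : Tendsto (s j) (𝓝[{w | w ∈ ball (0 : Cm d) 3 ∧ ψ (S.σ j w) ∉ A}] z)
        (𝓝 (s j z)) :=
      (((hs.hol j).differentiableAt (isOpen_ball.mem_nhds hz)).continuousAt.tendsto).mono_left
        nhdsWithin_le_nhds
    have c2 : Tendsto (fun w => g c (ψ (S.σ j w)) * (pj S ψ c j w).det)
        (𝓝[{w | w ∈ ball (0 : Cm d) 3 ∧ ψ (S.σ j w) ∉ A}] z)
        (𝓝 (g c (ψ (S.σ j z)) * (pj S ψ c j z).det)) := by
      have c3 : ContinuousAt (fun w => g c (ψ (S.σ j w))) z :=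
        ContinuousAt.comp (g := g c) (f := fun w => ψ (S.σ j w)) (hgh c hc _ hcs).continuousAt
          (h.contAt hz)
      exact (c3.mul (h.pj_det_an hz hc hcs).continuousAt).tendsto.mono_left nhdsWithin_le_nhds
    refine tendsto_nhds_unique_of_eventuallyEq c1 c2 ?_
    have e1 : ∀ᶠ w in 𝓝 z, ψ (S.σ j w) ∈ c.source :=
      (h.contAt hz).eventually (c.open_source.mem_nhds hcs)
    filter_upwards [mem_nhdsWithin_of_mem_nhds e1, self_mem_nhdsWithin] with w b1 b2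
    have b3 : (pj S ψ c j w).det ≠ 0 := h.nd j w b2.1 c hc b1 b2.2
    rw [hge c hc _ b1 b2.2, dn_eq h hs b2.1 hc b1 b2.2, div_mul_cancel₀ _ b3]

/-- **Forms of top degree on `E` and `F`.** -/
theorem Psi.h20 (h : Psi S ψ A) (hF : PgOne d F) : H20One S := by
  obtain ⟨s, hs, ⟨e, he, u, hu, hne⟩, huni⟩ := hF
  refine ⟨upF S ψ s, h.up_hol hs, ?_, ?_⟩
  · -- a point off `A`
    have h1 : ∀ᶠ v in 𝓝 u, s e v ≠ 0 :=
      ((hs.hol e he).differentiableAt (e.open_target.mem_nhds hu)).continuousAt.eventually_ne hne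
    have h2 : e.symm '' {v | v ∈ e.target ∧ s e v ≠ 0} ∈ 𝓝 (e.symm u) :=
      e.symm.image_mem_nhds (x := u) hu (inter_mem (e.open_target.mem_nhds hu) h1)
    obtain ⟨x, hxA, ⟨v, ⟨hv, hvs⟩, rfl⟩⟩ :=
      (H383.Gen.dense_compl_small (H308.Bir.small_of_small2 h.small)).inter_nhds_nonempty h2
    have hz := qt_mem h (e.symm v)
    have hx := qt_spec h (e.symm v)
    have hes : ψ (S.σ (qt h (e.symm v)).1 (qt h (e.symm v)).2) ∈ e.source := by
      rw [hx]
      exact e.map_target hv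
    refine ⟨(qt h (e.symm v)).1, (qt h (e.symm v)).2, hz, ?_⟩
    rw [h.up_eq hs hz he hes]
    refine mul_ne_zero ?_ (h.nd _ _ hz e he hes (by rw [hx]; exact hxA))
    rw [hx, e.right_inv hv]
    exact hvs
  · intro s' hs'
    obtain ⟨t, ht, hts⟩ := exists_down h hs'
    obtain ⟨c, hc⟩ := huni t ht
    refine ⟨c, fun j z hz => ?_⟩
    have he : chartAt (Cm d) (ψ (S.σ j z)) ∈ atlas (Cm d) F := chart_mem_atlas _ _
    have hes : ψ (S.σ j z) ∈ (chartAt (Cm d) (ψ (S.σ j z))).source := mem_chart_source _ _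
    rw [hts j z hz _ he hes, hc _ he _ (OpenPartialHomeomorph.map_source _ hes),
      h.up_eq hs hz he hes, mul_assoc]

end psi

end Vale.Agent.P281.H615.NC
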