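import Vale.Agent.P281.H615.NC.Geo

/-!
# P281, project T-NC (helper615), block L3-S: the fibres of `f ∘ u`, for a modification `u`
-/

open Set Filter Metric Vale.Agent.P281 Vale.Agent.P281.H713 Vale.Agent.P272.K
open scoped Topology ContDiff Manifold ComplexConjugate ComplexOrder

noncomputable section

namespace Vale.Agent.P281.H615.NC

open Vale.Agent.P281.H64.TK Vale.Agent.P281.H64.TK.TS
open Vale.Agent.P281.H64.TK.TE (IsSquareE)

/-- **L3-S**: if the fibre of `f` has a finite étale covering `F`, simply connected with `p_g = 1`,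
then the universal covering of the fibre of `f ∘ u` is compact with `h^{2,0} = 1`. -/
def FibKCStmt : Prop :=
  ∀ (p : ℕ) (X Y X₁ : Type) [TopologicalSpace X] [T2Space X] [ChartedSpace (Cm (p + 2)) X]
    [IsManifold 𝓘(ℂ, Cm (p + 2)) ω X] [TopologicalSpace Y] [T2Space Y] [ChartedSpace (Cm p) Y]
    [IsManifold 𝓘(ℂ, Cm p) ω Y] [TopologicalSpace X₁] [T2Space X₁] [ChartedSpace (Cm (p + 2)) X₁]
    [IsManifold 𝓘(ℂ, Cm (p + 2)) ω X₁] (f : X → Y) (u : X₁ → X) (S : Set Y) (y : Y) (F : Type)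
    [TopologicalSpace F] [T2Space F] [SimplyConnectedSpace F] [ChartedSpace (Cm 2) F] (i : F → X),
    IsSquareE (p + 2) p 2 f (fun z => f (u z)) u (id : Y → Y) S S y y i → ABStmt → PgOne 2 F →
    ∃ N, 0 < N ∧ NDegK p N (fun z => f (u z)) y

/-- **L3-S** -/
theorem fibKC : FibKCStmt := by
  intro p X Y X₁ _ _ _ _ _ _ _ _ _ _ _ _ f u S y F _ _ _ _ i hsq hAB hF
  obtain ⟨E, Γ, tE, t2, sc, gΓ, aΓ, cΓ, hfin, 𝓕, q, χ, t, ht, M, hy, hN, ψ, -, hψ⟩ :=
    exists_psi (by norm_num) hsq hAB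
  have hFm : IsManifold 𝓘(ℂ, Cm 2) ω F := hsq.fibre.manifold
  exact ⟨Nat.card Γ, hN, E, Γ, tE, t2, sc, gΓ, aΓ, cΓ, hfin, 𝓕, q, χ, t, ht, M, hy, rfl,
    hψ.h20 hF⟩

end Vale.Agent.P281.H615.NC
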