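import Vale.Agent.P281.H603.C.Conn
import Vale.Agent.P281.H83.Sheet
import Vale.Agent.P281.H495.C.M1
import Vale.Agent.P281.H603.TE.FibE

/-!
# P281, project T-NC (helper615): the universal coverings of the fibres of `f` and `f ∘ u`
-/

open Set Filter Metric Vale.Agent.P281 Vale.Agent.P281.H713 Vale.Agent.P281.ISO
open scoped Topology ContDiff Manifold

set_option linter.unusedSectionVars false

noncomputable section

namespace Vale.Agent.P281.H615.NC

open Vale.Agent.P281.H64.TK Vale.Agent.P281.H603.K Vale.Agent.P281.H603.C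
open Vale.Agent.P281.H603.KodN Vale.Agent.P281.H64.Gen Vale.Agent.P272.K
open Vale.Agent.P281.H969.K.FibN

/-- the parameter space of one point -/
abbrev P0 : Type := Fin 0 → ℝ

section tot

variable {n d : ℕ} {Z : Type} [TopologicalSpace Z] [ChartedSpace (Cm n) Z] {E Γ : Type}
  [TopologicalSpace E] [Group Γ] [MulAction Γ E] [ContinuousConstSMul Γ E] {S : Sheets d E Γ}

theorem map_nhds_smul (S : Sheets d E Γ) (γ : Γ) (j : Fin S.N) {z : Cm d}
    (hz : z ∈ ball (0 : Cm d) 3) : Filter.map (fun w => γ • S.σ j w) (𝓝 z) = 𝓝 (γ • S.σ j z) := by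
  have h1 : (fun w => γ • S.σ j w) = (fun e : E => γ • e) ∘ S.σ j := rfl
  rw [h1, ← Filter.map_map, S.map_nhds j z hz]
  exact (Homeomorph.smul γ).map_nhds_eq _

/-- **the covering of one fibre** -/
theorem totF {Q : E → Z} (h : QD n S Q) {W : Set Z} (hW : range Q = W) (hQ : ∀ e, Q e ∈ W) :
    TotCov (P := P0) Γ (univ : Set P0) (univ : Set ↥W) (fun _ => 0)
      fun _ e => (⟨Q e, hQ e⟩ : ↥W) where
  mem _ _ _ := mem_univ _
  time _ _ _ := Subsingleton.elim _ _
  maps _ _ := mem_univ _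
  eq _ _ e e' := by
    rw [Subtype.mk.injEq]
    exact h.Qeq e e'
  surj x _ := by
    have h1 : (x : Z) ∈ range Q := by
      rw [hW]
      exact x.2
    obtain ⟨e, he⟩ := h1
    exact ⟨e, Subtype.ext he⟩
  cont _ _ e := ((h.Qcont.comp continuous_snd).subtype_mk _).continuousAt
  sec _ _ e := by
    obtain ⟨γ, j, z, hz, rfl⟩ := S.cover e
    have hz3 : z ∈ ball (0 : Cm d) 3 := mem_ball_zero_iff.2 (by linarith)
    obtain ⟨ζ, h1, h2, h3⟩ := h.coord j z hz3
    have hQe : Q (γ • S.σ j z) = Q (S.σ j z) := ((h.Qeq _ _).2 ⟨γ, rfl⟩).symm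
    have hval : Tendsto (Subtype.val : ↥W → Z) (𝓝 (⟨Q (γ • S.σ j z), hQ _⟩ : ↥W))
        (𝓝 (Q (S.σ j z))) := by
      have h9 := (continuous_subtype_val (p := fun x => x ∈ W)).tendsto
        (⟨Q (γ • S.σ j z), hQ _⟩ : ↥W)
      rw [← hQe]
      exact h9
    refine ⟨fun x => γ • S.σ j (ζ x), ?_, ?_, ?_⟩
    · have c1 : Tendsto (fun x : ↥W => ζ x) (𝓝 (⟨Q (γ • S.σ j z), hQ _⟩ : ↥W)) (𝓝 z) := by
        have := h1.continuousAt.tendsto
        rw [h2] at this
        exact this.comp hval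
      have c2 : Tendsto (fun w => γ • S.σ j w) (𝓝 z) (𝓝 (γ • S.σ j z)) :=
        (map_nhds_smul S γ j hz3).le
      show Tendsto _ _ _
      have c3 := c2.comp c1
      have h4 : γ • S.σ j (ζ (Q (γ • S.σ j z))) = γ • S.σ j z := by rw [hQe, h2]
      show Tendsto (fun x : ↥W => γ • S.σ j (ζ x)) (𝓝 (⟨Q (γ • S.σ j z), hQ _⟩ : ↥W))
        (𝓝 (γ • S.σ j (ζ (Q (γ • S.σ j z)))))
      rw [h4]
      exact c3
    · show γ • S.σ j (ζ (Q (γ • S.σ j z))) = _
      rw [hQe, h2]
    · filter_upwards [hval.eventually h3] with x hx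
      refine Subtype.ext ?_
      show Q (γ • S.σ j (ζ x)) = x
      have h5 : (x : Z) ∈ range Q := by
        rw [hW]
        exact x.2
      rw [← (h.Qeq _ _).2 ⟨γ, rfl⟩]
      exact hx h5
  gcont _ _ := continuousAt_const
  disc t _ e := by
    obtain ⟨γ₀, j, z, hz, rfl⟩ := S.cover e
    have hz3 : z ∈ ball (0 : Cm d) 3 := mem_ball_zero_iff.2 (by linarith)
    refine ⟨univ ×ˢ ((fun w => γ₀ • S.σ j w) '' ball 0 3), ?_, ?_⟩
    · refine prod_mem_nhds univ_mem ?_
      rw [← map_nhds_smul S γ₀ j hz3]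
      exact image_mem_map (isOpen_ball.mem_nhds hz3)
    · rintro t' e' γ - ⟨-, w, hw, h1⟩ ⟨-, w', hw', h2⟩
      have h1' : γ₀ • S.σ j w = e' := h1
      have h2' : γ₀ • S.σ j w' = γ • e' := h2
      subst h1'
      have h5 : (γ₀⁻¹ * γ * γ₀) • S.σ j w = S.σ j w' := by
        rw [mul_smul, mul_smul, ← h2', inv_smul_smul]
      obtain ⟨h6, -⟩ := S.inj j w hw w' hw' _ h5
      have h7 : γ = γ₀ * (γ₀⁻¹ * γ * γ₀) * γ₀⁻¹ := by group
      rw [h7, h6]
      group

end tot

section md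

variable {X₁ X : Type} [TopologicalSpace X₁] [TopologicalSpace X] {u : X₁ → X} {e : Set X₁}
  {N : Set X} {inv : X → X₁}

/-- the restriction of a modification to a closed subset -/
theorem Md_restr (m : Md u e N inv) (W : Set X) :
    Md (fun z : ↥(u ⁻¹' W) => (⟨u z, z.2⟩ : ↥W)) (Subtype.val ⁻¹' e) (Subtype.val ⁻¹' N)
      (fun x => ⟨inv x, by
        show u (inv x) ∈ W
        rw [m.right]
        exact x.2⟩) where
  cont := (m.cont.comp continuous_subtype_val).subtype_mk _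
  right x := Subtype.ext (m.right _)
  inj _ _ h hz := Subtype.ext (m.inj _ _ (congrArg Subtype.val h) hz)
  mem z := m.mem z
  eclosed := m.eclosed.preimage continuous_subtype_val
  nclosed := m.nclosed.preimage continuous_subtype_val
  tend z hz := by
    rw [tendsto_subtype_rng]
    exact (m.tend z hz).comp (continuous_subtype_val.tendsto (⟨u z, z.2⟩ : ↥W))

end md

section homeo

/-- the total space over one point -/
def homT (E : Type) [TopologicalSpace E] : Tot (univ : Set P0) E ≃ₜ E where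
  toFun x := x.2
  invFun e := (⟨0, mem_univ _⟩, e)
  left_inv _ := Prod.ext (Subtype.ext (Subsingleton.elim _ _)) rfl
  right_inv _ := rfl
  continuous_toFun := continuous_snd
  continuous_invFun := continuous_const.prodMk continuous_id

end homeo

/-! ### The complement of a hypersurface of `E` -/

section hyp

variable {d : ℕ} {E Γ : Type} [TopologicalSpace E] [Group Γ] [MulAction Γ E]
  [ContinuousConstSMul Γ E] {S : Sheets d E Γ} {N : Set E}

/-- `N` is locally given by one equation, in the sheets -/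
def LocEq (S : Sheets d E Γ) (N : Set E) : Prop :=
  ∀ (γ : Γ) (j : Fin S.N), ∀ z ∈ ball (0 : Cm d) 3, ∃ r : Cm d → ℂ, AnalyticAt ℂ r z ∧
    ∀ᶠ w in 𝓝 z, (γ • S.σ j w ∈ N ↔ r w = 0)

/-- if `N ≠ E`, then the complement of `N` is dense -/
theorem LocEq.dense [PreconnectedSpace E] (h : LocEq S N) (hne : ∃ e, e ∉ N) (e : E)
    {U : Set E} (hU : U ∈ 𝓝 e) : ∃ y ∈ U, y ∉ N := by
  set A : Set E := {e | ∀ᶠ e' in 𝓝 e, e' ∈ N} with hA
  have hAo : IsOpen A := isOpen_setOfPred_eventually_nhds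
  have hAc : IsClosed A := by
    rw [← isOpen_compl_iff, isOpen_iff_mem_nhds]
    intro e he
    obtain ⟨γ, j, z, hz, rfl⟩ := S.cover e
    have hz3 : z ∈ ball (0 : Cm d) 3 := mem_ball_zero_iff.2 (by linarith)
    obtain ⟨r, hr, hre⟩ := h γ j z hz3
    have h1 : ∀ᶠ w in 𝓝 z, AnalyticAt ℂ r w ∧ (γ • S.σ j w ∈ N ↔ r w = 0) ∧
        w ∈ ball (0 : Cm d) 3 :=
      hr.eventually_analyticAt.and (hre.and (isOpen_ball.mem_nhds hz3))
    obtain ⟨ρ, hρ, hb⟩ := Metric.mem_nhds_iff.1 h1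
    rw [← map_nhds_smul S γ j hz3, Filter.mem_map]
    filter_upwards [ball_mem_nhds z hρ] with w hw hwA
    apply he
    have hw3 : w ∈ ball (0 : Cm d) 3 := (hb hw).2.2
    have hwA' : ∀ᶠ e' in 𝓝 (γ • S.σ j w), e' ∈ N := hwA
    rw [← map_nhds_smul S γ j hw3, eventually_map] at hwA'
    have hr0 : r =ᶠ[𝓝 w] 0 := by
      filter_upwards [hwA', isOpen_ball.mem_nhds hw] with w' a b
      exact ((hb b).2.1).1 a
    have hana : AnalyticOnNhd ℂ r (ball z ρ) := fun w hw => (hb hw).1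
    have hz0 := hana.eqOn_zero_of_preconnected_of_eventuallyEq_zero
      (convex_ball z ρ).isPreconnected hw hr0
    show ∀ᶠ e' in 𝓝 (γ • S.σ j z), e' ∈ N
    rw [← map_nhds_smul S γ j hz3, eventually_map]
    filter_upwards [ball_mem_nhds z hρ] with w' hw'
    exact ((hb hw').2.1).2 (hz0 hw')
  have hAe : A = ∅ := by
    rcases isClopen_iff.1 ⟨hAc, hAo⟩ with h1 | h1
    · exact h1
    · obtain ⟨e, he⟩ := hne
      have h2 : e ∈ A := by
        rw [h1]
        exact mem_univ _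
      exact absurd (h2 : ∀ᶠ e' in 𝓝 e, e' ∈ N).self_of_nhds he
  by_contra hcon
  push Not at hcon
  have h3 : e ∈ A := by
    show ∀ᶠ e' in 𝓝 e, e' ∈ N
    filter_upwards [hU] with y hy
    exact hcon y hy
  rw [hAe] at h3
  exact h3

/-- **the complement is connected** -/
theorem LocEq.preconn [PreconnectedSpace E] (h : LocEq S N) (hN : IsClosed N)
    (hne : ∃ e, e ∉ N) : IsPreconnected {e | e ∉ N} := by
  have hdense := fun e (U : Set E) (hU : U ∈ 𝓝 e) => h.dense hne e hU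
  refine preconn_of_local (N := N) (fun e U hU => hdense e U hU) fun e => ?_
  obtain ⟨γ, j, z, hz, rfl⟩ := S.cover e
  have hz3 : z ∈ ball (0 : Cm d) 3 := mem_ball_zero_iff.2 (by linarith)
  obtain ⟨ρ, hρ, hb⟩ := Metric.mem_nhds_iff.1 (isOpen_ball.mem_nhds hz3)
  have hb' : closedBall z (ρ / 2) ⊆ ball (0 : Cm d) 3 :=
    (closedBall_subset_ball (by linarith)).trans hb
  have hcont : ∀ w ∈ ball (0 : Cm d) 3, ContinuousAt (fun w => γ • S.σ j w) w := fun w hw =>
    (map_nhds_smul S γ j hw).le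
  refine ⟨(fun w => γ • S.σ j w) '' ball z (ρ / 2), ?_, ?_⟩
  · rw [← map_nhds_smul S γ j hz3]
    exact image_mem_map (ball_mem_nhds z (by linarith))
  · have h2 : (fun w => γ • S.σ j w) '' ball z (ρ / 2) \ N =
        (fun w => γ • S.σ j w) '' (ball z (ρ / 2) \
          (closedBall z (ρ / 2) ∩ {w | γ • S.σ j w ∈ N})) := by
      ext x
      constructor
      · rintro ⟨⟨w, hw, rfl⟩, hx⟩
        exact ⟨w, ⟨hw, fun hc => hx hc.2⟩, rfl⟩
      · rintro ⟨w, ⟨hw, hwN⟩, rfl⟩
        exact ⟨⟨w, hw, rfl⟩, fun hx => hwN ⟨ball_subset_closedBall hw, hx⟩⟩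
    rw [h2]
    have hcl : IsClosed (closedBall z (ρ / 2) ∩ {w | γ • S.σ j w ∈ N}) := by
      refine ContinuousOn.preimage_isClosed_of_isClosed ?_ isClosed_closedBall hN
      intro w hw
      exact (hcont w (hb' hw)).continuousWithinAt
    have hthin : H64.Thin.IsThinSet (Cm d) (closedBall z (ρ / 2) ∩ {w | γ • S.σ j w ∈ N}) := by
      refine ⟨hcl, fun y => ?_⟩
      by_cases hy : y ∈ closedBall z (ρ / 2) ∩ {w | γ • S.σ j w ∈ N}
      · have hy3 := hb' hy.1
        obtain ⟨r, hr, hre⟩ := h γ j y hy3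
        refine ⟨r, contMDiffAt_iff_contDiffAt.2 hr.contDiffAt, ?_, ?_⟩
        · intro hcon
          have h4 : (fun w => γ • S.σ j w) '' {w | r w = 0 ∧ (γ • S.σ j w ∈ N ↔ r w = 0)} ∈
              𝓝 (γ • S.σ j y) := by
            rw [← map_nhds_smul S γ j hy3]
            refine image_mem_map ?_
            have hcon' : ∀ᶠ w in 𝓝 y, r w = 0 := hcon
            filter_upwards [hcon', hre] with w a b
            exact ⟨a, b⟩
          obtain ⟨x, ⟨w, ⟨h5, h6⟩, rfl⟩, hx⟩ := hdense _ _ h4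
          exact hx (h6.2 h5)
        · filter_upwards [hre] with w h5 h6
          exact h5.1 h6.2
      · refine ⟨fun _ => 1, contMDiffAt_const, ?_, ?_⟩
        · intro hcon
          exact one_ne_zero hcon.self_of_nhds
        · filter_upwards [hcl.isOpen_compl.mem_nhds hy] with y' h3 h4
          exact absurd h4 h3
    have h1 := H303.Gen.isPreconnected_diff (isOpen_ball (x := z) (ε := ρ / 2))
      (convex_ball z (ρ / 2)).isPreconnected
      (S := closedBall z (ρ / 2) ∩ {w | γ • S.σ j w ∈ N})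
      ⟨hthin.1, fun _ => closedBall z (ρ / 2) ∩ {w | γ • S.σ j w ∈ N}, fun _ => hthin,
        fun y hy => mem_iUnion.2 ⟨0, hy⟩⟩
    refine h1.image _ fun w hw => ?_
    exact (hcont w (hb' (ball_subset_closedBall hw.1))).continuousWithinAt

end hyp

end Vale.Agent.P281.H615.NC
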