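import Vale.Agent.P281.H615.NC.Fix
import Vale.Agent.P281.H615.NC.Psi
import Vale.Agent.P281.H22.HK.Fib

/-!
# P281, project T-NC (helper615): the map from the universal covering `E` of the fibre of `f ∘ u` to
the compact, simply connected covering `F` of the fibre of `f`
-/

open Set Filter Metric Vale.Agent.P281 Vale.Agent.P281.H713 Vale.Agent.P272.K
open Vale.Agent.P281.H603.TE (sub idx rep)
open scoped Topology ContDiff Manifold ComplexConjugate ComplexOrder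

set_option linter.unusedSectionVars false

noncomputable section

namespace Vale.Agent.P281.H615.NC

open Vale.Agent.P281.H64.TK Vale.Agent.P281.H64.TK.TS Vale.Agent.P281.H22.TS
open Vale.Agent.P281.H125.Fib Vale.Agent.P281.H969.K.FibN Vale.Agent.P281.H603.TE
open Vale.Agent.P281.H603.K Vale.Agent.P281.H603.KodN
open Vale.Agent.P281.H64.Gen (IsSmall2 excSet)
open Vale.Agent.P281.H64.TK.TE (IsSquareE)

attribute [local instance] ccs'

theorem det_ne_of_inj {d : ℕ} {g : Cm d → Cm d} {z : Cm d}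
    (h : Function.Injective (fderiv ℂ g z)) : (H64.TK.jac g z).det ≠ 0 := by
  have h1 : H64.TK.jac g z = LinearMap.toMatrix' (fderiv ℂ g z : Cm d →ₗ[ℂ] Cm d) := rfl
  rw [h1, LinearMap.det_toMatrix']
  have h2 := (LinearEquiv.ofInjectiveEndo (fderiv ℂ g z : Cm d →ₗ[ℂ] Cm d) h).isUnit_det'
  have h3 : ((LinearEquiv.ofInjectiveEndo (fderiv ℂ g z : Cm d →ₗ[ℂ] Cm d) h :
      Cm d ≃ₗ[ℂ] Cm d) : Cm d →ₗ[ℂ] Cm d) = (fderiv ℂ g z : Cm d →ₗ[ℂ] Cm d) := by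
    apply LinearMap.ext
    intro v
    rfl
  rw [h3] at h2
  exact h2.ne_zero

section psi
variable {n d : ℕ} {X X₁ F E Γ : Type} [TopologicalSpace X] [ChartedSpace (Cm n) X]
  [IsManifold 𝓘(ℂ, Cm n) ω X] [TopologicalSpace X₁] [ChartedSpace (Cm n) X₁]
  [IsManifold 𝓘(ℂ, Cm n) ω X₁] [TopologicalSpace F] [ChartedSpace (Cm d) F]
  [IsManifold 𝓘(ℂ, Cm d) ω F] [TopologicalSpace E] [Group Γ] [MulAction Γ E]
  [ContinuousConstSMul Γ E] {S : Sheets d E Γ} {Q : E → X₁} {i : F → X} {u : X₁ → X}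

/-- the exceptional set is locally given by one equation in the sheets -/
theorem locEq_exc (h : QD n S Q) (hu : ContMDiff 𝓘(ℂ, Cm n) 𝓘(ℂ, Cm n) ω u) :
    LocEq S (Q ⁻¹' excSet (Cm n) u) := by
  intro γ j z hz
  have hq : ∀ w, Q (γ • S.σ j w) = Q (S.σ j w) := fun w => ((h.Qeq _ _).2 ⟨γ, rfl⟩).symm
  obtain ⟨R, hR, hRe⟩ := exc_local (n := n) (u := u) (z₀ := Q (S.σ j z)) fun z => hu z
  have h1 : ContMDiffAt 𝓘(ℂ, Cm d) 𝓘(ℂ, ℂ) ω (fun w => R (Q (S.σ j w))) z :=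
    ContMDiffAt.comp z (g := R) (f := fun w => Q (S.σ j w)) hR (h.hol j z hz)
  refine ⟨fun w => R (Q (S.σ j w)), (contMDiffAt_iff_contDiffAt.1 h1).analyticAt, ?_⟩
  filter_upwards [(h.hol j z hz).continuousAt.eventually hRe] with w hw
  show Q (γ • S.σ j w) ∈ excSet (Cm n) u ↔ _
  rw [hq]
  exact hw

/-- `ψ` is holomorphic -/
theorem psi_of (h : QD n S Q) (hm : Mod0 (n := n) u)
    (hu : ContMDiff 𝓘(ℂ, Cm n) 𝓘(ℂ, Cm n) ω u)
    (ihol : ContMDiff 𝓘(ℂ, Cm d) 𝓘(ℂ, Cm n) ω i)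
    (imm : ∀ x, Function.Injective (mfderiv 𝓘(ℂ, Cm d) 𝓘(ℂ, Cm n) i x)) {ψ : E → F}
    (hψc : Continuous ψ) (hψ : ∀ e, i (ψ e) = u (Q e)) (hs : Function.Surjective ψ)
    (hi : ∀ e e', ψ e = ψ e' → Q e ∉ excSet (Cm n) u → e = e')
    (hsmall : IsSmall2 (Cm d) (i ⁻¹' (u '' excSet (Cm n) u))) [PreconnectedSpace E]
    (hne : ∃ e, Q e ∉ excSet (Cm n) u) (K : Subgroup Γ) [K.FiniteIndex] :
    Psi (sub S K) ψ (i ⁻¹' (u '' excSet (Cm n) u)) := by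
  have hM : IsManifold 𝓘(ℂ, Cm d) 1 F := IsManifold.of_le (n := ω) le_top
  have hmem : ∀ e, ψ e ∈ i ⁻¹' (u '' excSet (Cm n) u) ↔ Q e ∈ excSet (Cm n) u := fun e => by
    show i (ψ e) ∈ u '' excSet (Cm n) u ↔ _
    rw [hψ, hm.mem_image]
  have hQσ : ∀ j y, Q ((sub S K).σ j y) = Q (S.σ (idx K S.N j).1 y) := fun j y =>
    ((h.Qeq _ _).2 ⟨rep K (idx K S.N j).2, rfl⟩).symm
  have hcont : ∀ j, ∀ z ∈ ball (0 : Cm d) 3, ContinuousAt (fun u => ψ ((sub S K).σ j u)) z :=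
    fun j z hz => hψc.continuousAt.comp ((sub S K).map_nhds j z hz).le
  have hqm : ∀ j, ∀ z ∈ ball (0 : Cm d) 3, MDifferentiableAt 𝓘(ℂ, Cm d) 𝓘(ℂ, Cm n)
      (fun y => Q (S.σ (idx K S.N j).1 y)) z := fun j z hz =>
    (h.hol _ z hz).mdifferentiableAt (by simp)
  have hum : ∀ x, MDifferentiableAt 𝓘(ℂ, Cm n) 𝓘(ℂ, Cm n) u x := fun x =>
    (hu x).mdifferentiableAt (by simp)
  have hder : ∀ j, ∀ z ∈ ball (0 : Cm d) 3,
      MDifferentiableAt 𝓘(ℂ, Cm d) 𝓘(ℂ, Cm d) (fun y => ψ ((sub S K).σ j y)) z := by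
    intro j z hz
    refine mdiff_lift (n := n) (i := i) (w := fun y => u (Q (S.σ (idx K S.N j).1 y)))
      (ihol _) (imm _) (hcont j z hz) ?_ fun y => ?_
    · exact (HasMFDerivAt.comp z (hum _).hasMFDerivAt (hqm j z hz).hasMFDerivAt).mdifferentiableAt
    · show i (ψ ((sub S K).σ j y)) = _
      rw [hψ, hQσ]
  have hcd : ∀ j, ∀ z ∈ ball (0 : Cm d) 3, ∀ c ∈ atlas (Cm d) F, ψ ((sub S K).σ j z) ∈ c.source →
      ∃ L : Cm d →L[ℂ] Cm d, HasFDerivAt (fun u => c (ψ ((sub S K).σ j u))) L z ∧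
        ∀ v, L v = mfderiv 𝓘(ℂ, Cm d) 𝓘(ℂ, Cm d) c (ψ ((sub S K).σ j z))
          (mfderiv 𝓘(ℂ, Cm d) 𝓘(ℂ, Cm d) (fun y => ψ ((sub S K).σ j y)) z v) := by
    intro j z hz c hc hcs
    have h3 : MDifferentiableAt 𝓘(ℂ, Cm d) 𝓘(ℂ, Cm d) c (ψ ((sub S K).σ j z)) :=
      mdifferentiableAt_atlas hc hcs
    exact ⟨_, (HasMFDerivAt.comp z h3.hasMFDerivAt (hder j z hz).hasMFDerivAt).hasFDerivAt,
      fun v => rfl⟩
  refine ⟨hψc, hs, fun e e' he hA => hi e e' he ((hmem e).not.1 hA), fun j z hz c hc hcs => ?_,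
    fun j z hz c hc hcs hA => ?_, hsmall, fun j z hz U hU => ?_⟩
  · have hopen : ∃ U : Set (Cm d), IsOpen U ∧ z ∈ U ∧ ∀ u ∈ U, u ∈ ball (0 : Cm d) 3 ∧
        ψ ((sub S K).σ j u) ∈ c.source := by
      have h1 : ∀ᶠ u in 𝓝 z, u ∈ ball (0 : Cm d) 3 ∧ ψ ((sub S K).σ j u) ∈ c.source :=
        (isOpen_ball.eventually_mem hz).and
          ((hcont j z hz).eventually (c.open_source.mem_nhds hcs))
      obtain ⟨U, hU, hUo, hzU⟩ := _root_.mem_nhds_iff.1 h1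
      exact ⟨U, hUo, hzU, fun u hu => hU hu⟩
    obtain ⟨U, hUo, hzU, hU⟩ := hopen
    refine MF.analyticAt_of_differentiableOn hUo (fun u hu => ?_) hzU
    obtain ⟨hu3, hus⟩ := hU u hu
    obtain ⟨L, hL, -⟩ := hcd j u hu3 c hc hus
    exact hL.differentiableAt.differentiableWithinAt
  · refine det_ne_of_inj ?_
    obtain ⟨L, hL, hLv⟩ := hcd j z hz c hc hcs
    rw [hL.fderiv]
    have h1 : Function.Injective (mfderiv 𝓘(ℂ, Cm d) 𝓘(ℂ, Cm d)
        (fun y => ψ ((sub S K).σ j y)) z) := by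
      refine inj_lift (n := n) (m := n) (i := i) (u := u)
        (q := fun y => Q (S.σ (idx K S.N j).1 y))
        ((ihol _).mdifferentiableAt (by simp)) (hum _) (hder j z hz) (hqm j z hz) (fun y => ?_) ?_
        (h.imm hz)
      · show i (ψ ((sub S K).σ j y)) = _
        rw [hψ, hQσ]
      · show Function.Injective (mfderiv 𝓘(ℂ, Cm n) 𝓘(ℂ, Cm n) u
          (Q (S.σ (idx K S.N j).1 z)))
        rw [← hQσ]
        exact (notMem_exc.1 ((hmem _).not.1 hA)).1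
    have h2 : Function.Injective (mfderiv 𝓘(ℂ, Cm d) 𝓘(ℂ, Cm d) c (ψ ((sub S K).σ j z))) :=
      (mdifferentiable_of_mem_atlas hc).mfderiv_injective hcs
    intro v v' hv
    rw [hLv, hLv] at hv
    exact h1 (h2 hv)
  · have h1 : (sub S K).σ j '' (U ∩ ball 0 3) ∈ 𝓝 ((sub S K).σ j z) := by
      rw [← (sub S K).map_nhds j z hz]
      exact image_mem_map (inter_mem hU (isOpen_ball.mem_nhds hz))
    obtain ⟨y, ⟨w, ⟨hw1, hw2⟩, rfl⟩, hy⟩ := (locEq_exc h hu).dense hne _ h1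
    exact ⟨w, hw1, hw2, (hmem _).not.2 hy⟩

end psi

section
variable {p d : ℕ} {X Y X₁ : Type} [TopologicalSpace X] [T2Space X] [ChartedSpace (Cm (p + d)) X]
  [IsManifold 𝓘(ℂ, Cm (p + d)) ω X] [TopologicalSpace Y] [T2Space Y] [ChartedSpace (Cm p) Y]
  [IsManifold 𝓘(ℂ, Cm p) ω Y] [TopologicalSpace X₁] [T2Space X₁] [ChartedSpace (Cm (p + d)) X₁]
  [IsManifold 𝓘(ℂ, Cm (p + d)) ω X₁] {f : X → Y} {u : X₁ → X} {S : Set Y} {y : Y}
  {F : Type} [TopologicalSpace F] [T2Space F] [SimplyConnectedSpace F] [ChartedSpace (Cm d) F]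
  {i : F → X}

/-- **A model of `f ∘ u`, with the map `ψ` from its universal covering to `F`.** -/
theorem exists_psi (hd : 0 < d)
    (hsq : IsSquareE (p + d) p d f (fun z => f (u z)) u (id : Y → Y) S S y y i) (hAB : ABStmt) :
    ∃ (E Γ : Type) (_ : TopologicalSpace E) (_ : T2Space E) (_ : SimplyConnectedSpace E)
      (_ : Group Γ) (_ : MulAction Γ E) (_ : ContinuousConstSMul Γ E)
      (_ : (⊥ : Subgroup Γ).FiniteIndex) (𝓕 : Fam p d E Γ)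
      (q : Cm p → E → X₁) (χ : OpenPartialHomeomorph Y (Cm p)) (t : Cm p) (ht : t ∈ 𝓕.T),
      Model (n := p + d) (fun z => f (u z)) 𝓕 χ q ∧ χ.symm t = y ∧ 0 < Nat.card Γ ∧
        ∃ ψ : E → F, (∀ e, i (ψ e) = u (q t e)) ∧
          Psi (sub (𝓕.at t ht) (⊥ : Subgroup Γ)) ψ (i ⁻¹' (u '' excSet (Cm (p + d)) u)) := by
  obtain ⟨E₀, Γ₀, tE₀, t2₀, sc₀, gΓ₀, aΓ₀, cΓ₀, -, 𝓕₀, q₀, χ₀, t₀, ht₀, M₀, hy₀, hN₀, τ, hτ, -⟩ :=
    H22.HK.exists_model hd hsq.hol hsq.proper hAB hsq.out hsq.fibre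
  obtain ⟨E, Γ, tE, t2, sc, gΓ, aΓ, cΓ, 𝓕, q, M, ht, -⟩ :=
    hAB p d X₁ Y (fun z => f (u z)) S hd hsq.hol₁ hsq.proper₁ y hsq.out₁
  have hyy : (chartAt (Cm p) y).symm (chartAt (Cm p) y y) = y :=
    (chartAt (Cm p) y).left_inv (mem_chart_source _ y)
  have hFc : CompactSpace F := hsq.fibre.compact
  have hFm : IsManifold 𝓘(ℂ, Cm d) ω F := hsq.fibre.manifold
  have hqd₀ := qd_of_model M₀ ht₀
  have hqd := qd_of_model M ht
  set Q₀ := q₀ t₀ with hQ₀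
  set Q := q (chartAt (Cm p) y y) with hQ
  set W : Set X := f ⁻¹' {y} with hW
  have hr₀ : range Q₀ = W := by rw [hQ₀, range_of_model M₀ ht₀, hy₀]
  have hr : range Q = u ⁻¹' W := by
    rw [hQ, range_of_model M ht, hyy]
    rfl
  have hQ₀W : ∀ e, Q₀ e ∈ W := fun e => by
    rw [← hr₀]
    exact ⟨e, rfl⟩
  have hQW : ∀ e, Q e ∈ u ⁻¹' W := fun e => by
    rw [← hr]
    exact ⟨e, rfl⟩
  have hm : Mod0 (n := p + d) u := mod0 hsq.modif
  have hcu : ContMDiff 𝓘(ℂ, Cm (p + d)) 𝓘(ℂ, Cm (p + d)) ω u := hsq.modif.2.1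
  have md := Md_restr (H603.C.Md.of hm) W
  have T₀ := totF hqd₀ hr₀ hQ₀W
  have T₁ : H603.C.TotCov (P := P0) Γ (univ : Set P0)
      ((fun z : ↥(u ⁻¹' W) => (⟨u z, z.2⟩ : ↥W)) ⁻¹' (univ : Set ↥W))
      (fun z : ↥(u ⁻¹' W) => (fun _ : ↥W => (0 : P0)) ⟨u z, z.2⟩)
      fun _ e => (⟨Q e, hQW e⟩ : ↥(u ⁻¹' W)) := totF hqd hr hQW
  have i1 : SimplyConnectedSpace (H603.C.Tot (univ : Set P0) E₀) :=
    H603.C.simply convex_univ univ_nonempty
  have i2 : SimplyConnectedSpace (H603.C.Tot (univ : Set P0) E) :=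
    H603.C.simply convex_univ univ_nonempty
  have i3 : LocallyPathConnectedSpace E := locPath (𝓕.at _ ht)
  obtain ⟨L, hL⟩ := H603.C.exists_L T₀ T₁ md convex_univ isOpen_univ univ_nonempty
  obtain ⟨ρ, hρ⟩ := hL.hom T₀ T₁
  -- the small set
  set A : Set F := i ⁻¹' (u '' excSet (Cm (p + d)) u) with hA
  have hAs : IsSmall2 (Cm d) A := hsq.small
  have hAd : Dense Aᶜ := H383.Gen.dense_compl_small (H308.Bir.small_of_small2 hAs)
  have hτA : ∀ e, Q₀ e ∈ u '' excSet (Cm (p + d)) u ↔ τ e ∈ A := fun e => by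
    show _ ↔ i (τ e) ∈ u '' excSet (Cm (p + d)) u
    rw [hτ]
  -- a point off the exceptional set
  have hne : ∃ e, Q e ∉ excSet (Cm (p + d)) u := by
    obtain ⟨x₀⟩ : Nonempty F := inferInstance
    obtain ⟨x, hx⟩ := hAd.nonempty_iff.2 ⟨x₀⟩
    obtain ⟨z, hz⟩ := hm.surj (i x)
    have hzW : z ∈ u ⁻¹' W := by
      show f (u z) = y
      rw [hz]
      exact hsq.fibre.fibre x
    rw [← hr] at hzW
    obtain ⟨e, rfl⟩ := hzW
    exact ⟨e, fun hcon => hx ⟨Q e, hcon, hz⟩⟩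
  -- charts
  have hch : ∀ z : H603.C.Tot (univ : Set P0) E₀, ∃ φ : OpenPartialHomeomorph
      (H603.C.Tot (univ : Set P0) E₀) (Fin d → ℂ), z ∈ φ.source ∧
      H603.C.Thin2 (φ.target ∩ φ.symm ⁻¹' {y : H603.C.Tot (univ : Set P0) E₀ |
        (⟨Q₀ y.2, hQ₀W y.2⟩ : ↥W) ∈
          (Subtype.val ⁻¹' (u '' excSet (Cm (p + d)) u) : Set ↥W)}) φ.target := by
    intro z
    set c := chartAt (Cm d) (τ z.2) with hc
    set hom : H603.C.Tot (univ : Set P0) E₀ ≃ₜ F := (homT E₀).trans τ with hhom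
    have hsrc : z ∈ (hom.toOpenPartialHomeomorph.trans c).source := by
      rw [OpenPartialHomeomorph.trans_source]
      exact ⟨mem_univ _, mem_chart_source _ _⟩
    refine ⟨hom.toOpenPartialHomeomorph.trans c, hsrc, ?_⟩
    have htgt : (hom.toOpenPartialHomeomorph.trans c).target = c.target := by
      rw [OpenPartialHomeomorph.trans_target]
      exact inter_eq_left.2 fun _ _ => mem_univ _
    rw [htgt]
    have h1 := H603.C.thin2_chart hAs (τ z.2) c.open_target (subset_refl _)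
    convert h1 using 1
    ext v
    refine and_congr_right fun _ => ?_
    show Q₀ (τ.symm (c.symm v)) ∈ u '' excSet (Cm (p + d)) u ↔ c.symm v ∈ A
    rw [hτA, τ.apply_symm_apply]
  have hpre : IsPreconnected {y : H603.C.Tot (univ : Set P0) E₀ |
      (⟨Q₀ y.2, hQ₀W y.2⟩ : ↥W) ∉ (Subtype.val ⁻¹' (u '' excSet (Cm (p + d)) u) : Set ↥W)} := by
    have h1 : IsPreconnected Aᶜ :=
      (H383.Gen.compl d F A (H308.Bir.small_of_small2 hAs)).2
    have h2 := ((homT E₀).trans τ).isPreconnected_preimage.2 h1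
    convert h2 using 1
    ext y
    show ¬ (Q₀ y.2 ∈ u '' excSet (Cm (p + d)) u) ↔ ¬ (τ y.2 ∈ A)
    rw [hτA]
  have hpre₁ : IsPreconnected {x : H603.C.Tot (univ : Set P0) E |
      (⟨Q x.2, hQW x.2⟩ : ↥(u ⁻¹' W)) ∉
        (Subtype.val ⁻¹' excSet (Cm (p + d)) u : Set ↥(u ⁻¹' W))} := by
    have h1 := (locEq_exc hqd hcu).preconn (hm.eclosed.preimage hqd.Qcont) hne
    exact (homT E).isPreconnected_preimage.2 h1
  obtain ⟨e₁, he₁⟩ := hne
  obtain ⟨hbij, hs, hinj⟩ := hL.bij (H83.Sheet.covInj_of H495.C.sec) (n := d) T₀ T₁ md hρ hch hpre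
    hpre₁ ⟨(homT E).symm e₁, he₁⟩
  -- `Γ` is finite
  have hΓ₀ : Finite Γ₀ := Nat.finite_of_card_ne_zero hN₀.ne'
  have hΓ : Finite Γ := Finite.of_injective ρ hbij.1
  have hfin : (⊥ : Subgroup Γ).FiniteIndex := inferInstance
  -- the map
  have hval : ∀ e, Q₀ (L ((homT E).symm e)).2 = u (Q e) := fun e =>
    congrArg Subtype.val (hL.eq ((homT E).symm e))
  have hψ : ∀ e, i (τ (L ((homT E).symm e)).2) = u (Q e) := fun e => by
    rw [hτ]
    exact hval e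
  refine ⟨E, Γ, tE, t2, sc, gΓ, aΓ, cΓ, hfin, 𝓕, q, chartAt (Cm p) y, _, ht, M, hyy,
    Nat.card_pos, fun e => τ (L ((homT E).symm e)).2, hψ, ?_⟩
  refine psi_of hqd hm hcu hsq.fibre.hol hsq.fibre.immersion ?_ hψ ?_ ?_ hAs ⟨e₁, he₁⟩ ⊥
  · exact τ.continuous.comp ((homT E₀).continuous.comp (hL.cont.comp (homT E).symm.continuous))
  · intro x
    obtain ⟨e, he⟩ := hs ((homT E₀).symm (τ.symm x))
    refine ⟨homT E e, ?_⟩
    show τ (L ((homT E).symm (homT E e))).2 = x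
    rw [(homT E).symm_apply_apply, he]
    exact τ.apply_symm_apply x
  · intro e e' he hQe
    have h1 : (L ((homT E).symm e)).2 = (L ((homT E).symm e')).2 := τ.injective he
    have h2 : L ((homT E).symm e) = L ((homT E).symm e') :=
      Prod.ext (Subtype.ext (Subsingleton.elim _ _)) h1
    exact (homT E).symm.injective (hinj _ _ h2 hQe)

end

end Vale.Agent.P281.H615.NC
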